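import Crest.Agent.X261.Fam.St

/-!
# Row 261, package FAM, transfer half of `FsStmt` (helper22), part Defs

* `SmStmt` : the identities of Siu-Sampson and Stokes for one smooth map.
-/

set_option autoImplicit false
set_option linter.unusedSectionVars false

open Set Filter Topology MeasureTheory Matrix
open scoped ComplexConjugate ComplexOrder InnerProductSpace ContDiff

namespace Crest.Agent.X261.Fs22

open Crest.Agent.R275.Geo Crest.Agent.R275.EDR890 Crest.Agent.R273.Hess_333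
open Crest.Agent.X261.Fam

/-- **SM**: `Qe` is divergence free; Siu-Sampson and Stokes for one smooth map -/
def SmStmt : Prop :=
  ∀ (n q : ℕ) (H : Type) [NormedAddCommGroup H] [InnerProductSpace ℂ H] [CompleteSpace H]
    (U : Set (Cn n)) (G : Cn n → Mt n) (a : Cn n → Cn q) (φ : Cn n → ℝ) (ε : ℝ),
    KF U G → DifferentiableOn ℂ a U → ContDiff ℝ ∞ φ → HasCompactSupport φ → tsupport φ ⊆ U →
    0 < ε →
    (∀ z ∈ U, ∀ p, ∑ r, wd (true, r) (fun w => Qe (G w) (Cf a w) ε r p) z = 0) ∧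
    ∀ F : Cn n → H, ContDiff ℝ ∞ F →
      (∫ z, (φ z : ℂ) * ip (W4 (gE (G z) (Cf a z) ε)) (Am F z) (Am F z) =
        -∫ z, ip (Wm (gE (G z) (Cf a z) ε) (hess φ z)) (th F z) (th F z)) ∧
      ∀ c : Fin q → ℂ,
        ∫ z, ip (Wm (gE (G z) (Cf a z) ε) (d1 (Cf a z *ᵥ c) φ z)) (th F z) (th F z) =
          ∫ z, (φ z : ℂ) * ip (W4 (gE (G z) (Cf a z) ε)) (tn (th F z) (Cf a z *ᵥ c)) (Am F z)

end Crest.Agent.X261.Fs22
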