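import Crest.Agent.X261.Fs22.Defs

/-!
# Row 261, package FAM, transfer half of `FsStmt` (helper22), part A: general tools

* continuity of matrix expressions;
* `int_K`, `sq_int_le`, `qf_near` : integrals over a compact set;
* `J_wd`, `int_wd_H` : Wirtinger derivatives of Hilbert valued maps.
-/

set_option autoImplicit false
set_option linter.unusedSectionVars false

open Set Filter Topology MeasureTheory Matrix
open scoped ComplexConjugate ComplexOrder InnerProductSpace ContDiff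

namespace Crest.Agent.X261.Fs22

open Crest.Agent.R275.Geo Crest.Agent.R275.EDR890 Crest.Agent.R273.Hess_333
open Crest.Agent.R273.Fock_243 Crest.Agent.R273.GamR_155
open Crest.Agent.X261.Fam

noncomputable section

variable {n q : ℕ} {H : Type*} [NormedAddCommGroup H] [InnerProductSpace ℂ H]

/-! ### continuity -/

section cont

variable {α : Type*} [TopologicalSpace α] {s : Set α} {ι κ σ : Type*} [Fintype ι] [Fintype κ]
  [Fintype σ]

theorem c_ent {X : α → Matrix ι κ ℂ} (h : ContinuousOn X s) (r : ι) (p : κ) :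
    ContinuousOn (fun z => X z r p) s := continuousOn_pi.1 (continuousOn_pi.1 h r) p

theorem c_of {X : α → Matrix ι κ ℂ} (h : ∀ r p, ContinuousOn (fun z => X z r p) s) :
    ContinuousOn X s := continuousOn_pi.2 fun r => continuousOn_pi.2 fun p => h r p

theorem c_ip {X : α → Matrix ι ι ℂ} {A B : α → ι → H} (hX : ContinuousOn X s)
    (hA : ContinuousOn A s) (hB : ContinuousOn B s) :
    ContinuousOn (fun z => ip (X z) (A z) (B z)) s := by
  simp only [ip_eq]
  exact continuousOn_finsetSum _ fun r _ => continuousOn_finsetSum _ fun p _ =>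
    (c_ent hX r p).mul ((continuousOn_pi.1 hA r).inner (continuousOn_pi.1 hB p))

theorem c_en {X : α → Matrix ι ι ℂ} {A : α → ι → H} (hX : ContinuousOn X s)
    (hA : ContinuousOn A s) : ContinuousOn (fun z => en (X z) (A z)) s :=
  Complex.continuous_re.comp_continuousOn (c_ip hX hA hA)

theorem c_ac {X : α → Matrix ι κ ℂ} {A : α → κ → H} (hX : ContinuousOn X s)
    (hA : ContinuousOn A s) : ContinuousOn (fun z => ac (X z) (A z)) s :=
  continuousOn_pi.2 fun r => continuousOn_finsetSum _ fun p _ =>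
    (c_ent hX r p).smul (continuousOn_pi.1 hA p)

theorem c_sq {A : α → ι → H} (hA : ContinuousOn A s) : ContinuousOn (fun z => Fam.sq (A z)) s :=
  continuousOn_finsetSum _ fun r _ => (continuousOn_pi.1 hA r).norm.pow 2

theorem c_mul {X : α → Matrix ι κ ℂ} {Y : α → Matrix κ σ ℂ} (hX : ContinuousOn X s)
    (hY : ContinuousOn Y s) : ContinuousOn (fun z => X z * Y z) s :=
  c_of fun r p => by
    simp only [Matrix.mul_apply]
    exact continuousOn_finsetSum _ fun k _ => (c_ent hX r k).mul (c_ent hY k p)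

theorem c_ct {X : α → Matrix ι κ ℂ} (hX : ContinuousOn X s) :
    ContinuousOn (fun z => (X z)ᴴ) s :=
  c_of fun r p => by
    simp only [Matrix.conjTranspose_apply]
    exact (c_ent hX p r).star

theorem c_det [DecidableEq ι] {X : α → Matrix ι ι ℂ} (hX : ContinuousOn X s) :
    ContinuousOn (fun z => (X z).det) s :=
  (continuous_id.matrix_det (R := ℂ) (n := ι)).comp_continuousOn hX

theorem c_tr {X : α → Matrix ι ι ℂ} (hX : ContinuousOn X s) :
    ContinuousOn (fun z => (X z).trace) s :=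
  continuousOn_finsetSum _ fun r _ => c_ent hX r r

theorem c_inv [DecidableEq ι] {X : α → Matrix ι ι ℂ} (hX : ContinuousOn X s)
    (h : ∀ z ∈ s, (X z).det ≠ 0) : ContinuousOn (fun z => (X z)⁻¹) s := by
  have h1 : ContinuousOn (fun z => (X z).adjugate) s :=
    (continuous_id.matrix_adjugate (R := ℂ) (n := ι)).comp_continuousOn hX
  simp only [Matrix.inv_def, Ring.inverse_eq_inv']
  exact ((c_det hX).inv₀ h).smul h1

theorem c_Gam {X : α → Mt n} (hX : ContinuousOn X s) : ContinuousOn (fun z => Gam (X z)) s :=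
  c_of fun S T => by
    unfold Gam
    split_ifs with h
    · exact c_det (c_of fun r p => c_ent hX _ _)
    · exact continuousOn_const

theorem c_Wm {g X : α → Mt n} (hg : ContinuousOn g s) (h : ∀ z ∈ s, (g z).det ≠ 0)
    (hX : ContinuousOn X s) : ContinuousOn (fun z => Wm (g z) (X z)) s :=
  (c_det hg).smul (((c_tr (c_mul (c_inv hg h) hX)).smul (c_inv hg h)).sub
    (c_mul (c_mul (c_inv hg h) hX) (c_inv hg h)))

theorem c_W4 {g : α → Mt n} (hg : ContinuousOn g s) (h : ∀ z ∈ s, (g z).det ≠ 0) :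
    ContinuousOn (fun z => W4 (g z)) s :=
  c_of fun _ _ => (c_det hg).mul
    (((c_ent (c_inv hg h) _ _).mul (c_ent (c_inv hg h) _ _)).sub
      ((c_ent (c_inv hg h) _ _).mul (c_ent (c_inv hg h) _ _)))

theorem c_trH {X : α → Mt n} {A : α → Fin n × Fin n → H} (hX : ContinuousOn X s)
    (hA : ContinuousOn A s) : ContinuousOn (fun z => trH (X z) (A z)) s :=
  continuousOn_finsetSum _ fun p _ => (c_ent hX _ _).smul (continuousOn_pi.1 hA p)

end cont

/-! ### integrals over a compact set -/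

theorem int_K {E : Type*} [NormedAddCommGroup E] {K : Set (Cn n)} (hK : IsCompact K)
    {f : Cn n → E} (hf : ContinuousOn f K) (h0 : ∀ z ∉ K, f z = 0) : Integrable f :=
  (hf.integrableOn_compact hK).integrable_of_forall_notMem_eq_zero h0

theorem bd_K {K : Set (Cn n)} (hK : IsCompact K) {f : Cn n → ℝ} (hf : ContinuousOn f K) :
    ∃ M : ℝ, 0 ≤ M ∧ ∀ z ∈ K, f z ≤ M := by
  obtain ⟨M, hM⟩ := hK.exists_bound_of_continuousOn hf
  exact ⟨max M 0, le_max_right _ _, fun z hz =>
    ((le_abs_self _).trans (hM z hz)).trans (le_max_left _ _)⟩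

theorem sq_int_le {K : Set (Cn n)} (hK : IsCompact K) {f : Cn n → ℝ} (hf : ContinuousOn f K) :
    (∫ z in K, f z) ^ 2 ≤ (volume : Measure (Cn n)).real K * ∫ z in K, f z ^ 2 := by
  have h1 : IntegrableOn f K := hf.integrableOn_compact hK
  have h2 : IntegrableOn (fun z => f z ^ 2) K := (hf.pow 2).integrableOn_compact hK
  have h3 : ∀ c : ℝ, IntegrableOn (fun _ : Cn n => c) K := fun c =>
    continuousOn_const.integrableOn_compact hK
  have h := discrim_le_zero (a := (volume : Measure (Cn n)).real K) (b := -2 * ∫ z in K, f z)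
    (c := ∫ z in K, f z ^ 2) fun t => by
      have e : ∫ z in K, (f z - t) ^ 2 = (volume : Measure (Cn n)).real K * (t * t) +
          (-2 * ∫ z in K, f z) * t + ∫ z in K, f z ^ 2 := by
        have e1 : (fun z => (f z - t) ^ 2) = fun z => (t * t + (-2 * t) * f z) + f z ^ 2 := by
          funext z; ring
        have h4 : IntegrableOn (fun z => t * t + (-2 * t) * f z) K := (h3 _).add (h1.const_mul _)
        rw [e1, integral_add h4 h2, integral_add (h3 _) (h1.const_mul _),
          setIntegral_const, integral_const_mul, smul_eq_mul]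
        ring
      rw [← e]
      exact integral_nonneg fun z => sq_nonneg _
  unfold discrim at h
  nlinarith

section qf

variable {ι : Type*} [Fintype ι]

theorem sq_add_le (A B : ι → H) : Fam.sq (A + B) ≤ 2 * Fam.sq A + 2 * Fam.sq B := by
  simp only [Fam.sq, Finset.mul_sum, ← Finset.sum_add_distrib]
  refine Finset.sum_le_sum fun r _ => ?_
  have h := norm_add_le (A r) (B r)
  have h2 := pow_le_pow_left₀ (norm_nonneg _) h 2
  rw [Pi.add_apply]
  nlinarith [sq_nonneg (‖A r‖ - ‖B r‖)]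

theorem norm_ip_le2 {X : Matrix ι ι ℂ} {M : ℝ} (hM : ∀ r p, ‖X r p‖ ≤ M) (A B : ι → H) {s : ℝ}
    (hs : 0 < s) :
    ‖ip X A B‖ ≤ M * Fintype.card ι * (s / 2 * Fam.sq A + 1 / (2 * s) * Fam.sq B) := by
  rw [ip_eq]
  have h1 : ‖∑ r, ∑ p, X r p * ⟪A r, B p⟫_ℂ‖ ≤
      ∑ r, ∑ p, M * (s / 2 * ‖A r‖ ^ 2 + 1 / (2 * s) * ‖B p‖ ^ 2) := by
    refine (norm_sum_le _ _).trans (Finset.sum_le_sum fun r _ => ?_)
    refine (norm_sum_le _ _).trans (Finset.sum_le_sum fun p _ => ?_)
    rw [norm_mul]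
    exact mul_le_mul (hM r p) ((norm_inner_le_norm _ _).trans (amgm _ _ s hs)) (norm_nonneg _)
      ((norm_nonneg _).trans (hM r p))
  refine h1.trans (le_of_eq ?_)
  simp only [← Finset.mul_sum, Finset.sum_add_distrib, Finset.sum_const, Finset.card_univ,
    nsmul_eq_mul, Fam.sq]
  ring

theorem norm_ip_sub_le {X : Matrix ι ι ℂ} {M : ℝ} (hM : ∀ r p, ‖X r p‖ ≤ M) (A B : ι → H) {s : ℝ}
    (hs : 0 < s) : ‖ip X B B - ip X A A‖ ≤
      M * Fintype.card ι * (s * Fam.sq A + (1 / s + 1) * Fam.sq (B - A)) := by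
  have e : ip X B B - ip X A A = ip X A (B - A) + ip X (B - A) A + ip X (B - A) (B - A) := by
    simp only [ip_sub_left, ip_sub_right]; ring
  have h1 := norm_ip_le2 hM A (B - A) hs
  have h2 := norm_ip_le2 hM (B - A) A (inv_pos.2 hs)
  have h3 := norm_ip_le_ent hM (B - A)
  rw [e]
  refine (norm_add₃_le.trans (add_le_add (add_le_add h1 h2) h3)).trans (le_of_eq ?_)
  field_simp
  ring

/-- `L²`-continuity of quadratic forms -/
theorem qf_near {K : Set (Cn n)} (hK : IsCompact K) {X : Cn n → Matrix ι ι ℂ}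
    (hX : ContinuousOn X K) (h0 : ∀ z ∉ K, X z = 0) (B : ℝ) {δ : ℝ} (hδ : 0 < δ) :
    ∀ᶠ η in 𝓝[>] (0 : ℝ), ∀ θ θ' : Cn n → ι → H, ContinuousOn θ K → ContinuousOn θ' K →
      ∫ z in K, Fam.sq (θ z) ≤ B → ∫ z in K, Fam.sq (θ' z - θ z) ≤ η →
      ‖(∫ z, ip (X z) (θ' z) (θ' z)) - ∫ z, ip (X z) (θ z) (θ z)‖ ≤ δ := by
  obtain ⟨M, hM0, hM⟩ := bd_K hK (f := fun z => ∑ r, ∑ p, ‖X z r p‖)
    (continuousOn_finsetSum _ fun r _ => continuousOn_finsetSum _ fun p _ => (c_ent hX r p).norm)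
  have hM' : ∀ z ∈ K, ∀ r p, ‖X z r p‖ ≤ M := fun z hz r p =>
    ((Finset.single_le_sum (f := fun p => ‖X z r p‖) (fun _ _ => norm_nonneg _)
      (Finset.mem_univ p)).trans (Finset.single_le_sum (f := fun r => ∑ p, ‖X z r p‖)
      (fun _ _ => Finset.sum_nonneg fun _ _ => norm_nonneg _) (Finset.mem_univ r))).trans (hM z hz)
  set c : ℝ := M * Fintype.card ι with hc
  have hc0 : 0 ≤ c := by positivity
  obtain ⟨s, hs, hs'⟩ : ∃ s : ℝ, 0 < s ∧ c * (s * B) ≤ δ / 2 := by
    have h : Tendsto (fun s : ℝ => c * (s * B)) (𝓝[>] 0) (𝓝 (c * (0 * B))) :=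
      ((continuous_const.mul (continuous_id.mul continuous_const)).tendsto 0).mono_left
        nhdsWithin_le_nhds
    rw [zero_mul, mul_zero] at h
    exact (eventually_mem_nhdsWithin.and (h.eventually (ge_mem_nhds (half_pos hδ)))).exists
  have h2 : Tendsto (fun η : ℝ => c * ((1 / s + 1) * η)) (𝓝[>] 0) (𝓝 (c * ((1 / s + 1) * 0))) :=
    ((continuous_const.mul (continuous_const.mul continuous_id)).tendsto 0).mono_left
      nhdsWithin_le_nhds
  rw [mul_zero, mul_zero] at h2
  filter_upwards [h2.eventually (ge_mem_nhds (half_pos hδ))] with η hη θ θ' hθ hθ' hB hd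
  have hz : ∀ (θ : Cn n → ι → H), ∀ z ∉ K, ip (X z) (θ z) (θ z) = 0 := fun θ z hz => by
    simp [h0 z hz, ip_eq]
  have i1 := (c_ip hX hθ hθ).integrableOn_compact (μ := volume) hK
  have i2 := (c_ip hX hθ' hθ').integrableOn_compact (μ := volume) hK
  have i3 := (c_sq hθ).integrableOn_compact (μ := volume) hK
  have i4 : IntegrableOn (fun z => Fam.sq (θ' z - θ z)) K :=
    (c_sq (hθ'.sub hθ)).integrableOn_compact (μ := volume) hK
  rw [← setIntegral_eq_integral_of_forall_compl_eq_zero (hz θ),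
    ← setIntegral_eq_integral_of_forall_compl_eq_zero (hz θ'), ← integral_sub i2 i1]
  have h3 : ‖∫ z in K, (ip (X z) (θ' z) (θ' z) - ip (X z) (θ z) (θ z))‖ ≤
      ∫ z in K, c * (s * Fam.sq (θ z) + (1 / s + 1) * Fam.sq (θ' z - θ z)) :=
    norm_integral_le_of_norm_le (((i3.const_mul _).add (i4.const_mul _)).const_mul _)
      ((ae_restrict_iff' hK.measurableSet).2 (ae_of_all _ fun z hz =>
        norm_ip_sub_le (hM' z hz) _ _ hs))
  rw [integral_const_mul, integral_add (i3.const_mul _) (i4.const_mul _), integral_const_mul,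
    integral_const_mul] at h3
  have h4 : c * (s * ∫ z in K, Fam.sq (θ z)) ≤ c * (s * B) := by gcongr
  have h5 : c * ((1 / s + 1) * ∫ z in K, Fam.sq (θ' z - θ z)) ≤ c * ((1 / s + 1) * η) := by gcongr
  rw [mul_add] at h3
  linarith

theorem int_en {K : Set (Cn n)} (hK : IsCompact K) {φ : Cn n → ℝ} (hφ : ContinuousOn φ K)
    (h0 : ∀ z ∉ K, φ z = 0) {Y : Cn n → Matrix ι ι ℂ} (hY : ContinuousOn Y K)
    {θ : Cn n → ι → H} (hθ : ContinuousOn θ K) :
    ∫ z, φ z * en (Y z) (θ z) = (∫ z, ip ((φ z : ℂ) • Y z) (θ z) (θ z)).re := by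
  have h1 : Integrable fun z => ip ((φ z : ℂ) • Y z) (θ z) (θ z) :=
    int_K hK (c_ip ((Complex.continuous_ofReal.comp_continuousOn hφ).smul hY) hθ hθ)
      fun z hz => by simp [h0 z hz, ip_eq]
  have h2 := integral_re h1
  simp only [RCLike.re_to_complex] at h2
  rw [← h2]
  exact integral_congr_ae (ae_of_all _ fun z => (en_smul _ _ _).symm)

/-- the real form of `qf_near` -/
theorem qr_near {K : Set (Cn n)} (hK : IsCompact K) {φ : Cn n → ℝ} (hφ : ContinuousOn φ K)
    (h0 : ∀ z ∉ K, φ z = 0) {Y : Cn n → Matrix ι ι ℂ} (hY : ContinuousOn Y K) (B : ℝ) {δ : ℝ}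
    (hδ : 0 < δ) :
    ∀ᶠ η in 𝓝[>] (0 : ℝ), ∀ θ θ' : Cn n → ι → H, ContinuousOn θ K → ContinuousOn θ' K →
      ∫ z in K, Fam.sq (θ z) ≤ B → ∫ z in K, Fam.sq (θ' z - θ z) ≤ η →
      ∫ z, φ z * en (Y z) (θ' z) ≤ (∫ z, φ z * en (Y z) (θ z)) + δ := by
  filter_upwards [qf_near (H := H) hK (X := fun z => (φ z : ℂ) • Y z)
    ((Complex.continuous_ofReal.comp_continuousOn hφ).smul hY) (fun z hz => by simp [h0 z hz]) B hδ]
    with η h θ θ' hθ hθ' hB hd
  have h1 := (Complex.re_le_norm _).trans (h θ θ' hθ hθ' hB hd)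
  rw [int_en hK hφ h0 hY hθ, int_en hK hφ h0 hY hθ']
  rw [Complex.sub_re] at h1
  linarith

end qf

/-! ### Wirtinger derivatives -/

theorem J_wd (cj : Cj H) (s : WI n) {f : Cn n → H} {z : Cn n} (hf : DifferentiableAt ℝ f z) :
    cj.J (wd s f z) = wd (!s.1, s.2) (fun w => cj.J (f w)) z := by
  have h : fderiv ℝ (fun w => cj.J (f w)) z = cj.J.comp (fderiv ℝ f z) :=
    (cj.J.hasFDerivAt.comp z hf.hasFDerivAt).fderiv
  obtain ⟨b, a⟩ := s
  rw [wd, wd, h]
  cases b <;> simp [wdL, cj.smul, map_ofNat (starRingEnd ℂ) 2]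

theorem cd_wd {W : Type*} [NormedAddCommGroup W] [NormedSpace ℂ W] {f : Cn n → W}
    (hf : ContDiff ℝ ∞ f) (s : WI n) : ContDiff ℝ ∞ (wd s f) :=
  contDiff_iff_contDiffAt.2 fun _ => contDiffAt_wd hf.contDiffAt s

theorem J_Am (cj : Cj H) {F : Cn n → H} (hF : ContDiff ℝ ∞ F) (hr : ∀ z, cj.J (F z) = F z)
    (z : Cn n) (a b : Fin n) : cj.J (Am F z (a, b)) = Am F z (b, a) := by
  have h1 : (fun w => cj.J (wd (true, b) F w)) = wd (false, b) F := by
    funext w
    rw [J_wd cj _ (hF.differentiable (by simp) w)]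
    simp only [hr]
    rfl
  simp only [Am]
  rw [J_wd cj _ ((cd_wd hF _).differentiable (by simp) z), h1]
  exact wd_comm hF.contDiffAt _ _

theorem wd_off {W : Type*} [NormedAddCommGroup W] [NormedSpace ℂ W] {f : Cn n → W} {z : Cn n}
    (hz : z ∉ tsupport f) (s : WI n) : wd s f =ᶠ[𝓝 z] fun _ => 0 := by
  filter_upwards [(notMem_tsupport_iff_eventuallyEq.1 hz).eventually_nhds] with w hw
  rw [wd_congr hw]
  exact wd_const 0 w s

theorem tsupport_cu (φ : Cn n → ℝ) : tsupport (cu φ) = tsupport φ := by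
  unfold tsupport
  congr 1
  ext z
  simp [cu]

theorem int_wd_H [CompleteSpace H] {f : Cn n → H} (hf : ContDiff ℝ ∞ f) (hc : HasCompactSupport f)
    (s : WI n) : ∫ z, wd s f z = 0 := by
  have hi : ∀ v : Cn n, Integrable (fun z => fderiv ℝ f z v) := fun v =>
    ((hf.continuous_fderiv (by simp)).clm_apply continuous_const).integrable_of_hasCompactSupport
      (hc.fderiv_apply (𝕜 := ℝ) v)
  have h0 : ∀ v : Cn n, ∫ z, fderiv ℝ f z v = 0 := fun v => by
    have h := integral_smul_fderiv_eq_neg_fderiv_smul_of_integrable (μ := volume) (𝕜 := ℝ)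
      (f := fun _ : Cn n => (1 : ℝ)) (g := f) (v := v) (by simp) (by simpa using hi v)
      (by simpa using hf.continuous.integrable_of_hasCompactSupport hc)
      (fun x _ => differentiableAt_const _) (fun x _ => hf.differentiable (by simp) x)
    simpa using h
  have h1 : ∀ (c : ℂ) (v : Cn n), Integrable (fun z => c • fderiv ℝ f z v) := fun c v =>
    (hi v).smul c
  simp only [wd, wdL]
  rw [integral_smul, integral_add (hi _) (h1 _ _), integral_smul, h0, h0]
  simp

end

end Crest.Agent.X261.Fs22
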