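import Crest.Agent.X261.Fs22.A

/-!
# Row 261, package FAM, transfer half of `FsStmt` (helper22), part B: one smooth map

* regularity of `Cf`, `vI`, `gE`, `Qe`, `Q0`;
* `ss` : `∫ φ na = tension + Rs`; `st` : the Stokes term; `db` : the `∂̄` term.
-/

set_option autoImplicit false
set_option linter.unusedSectionVars false

open Set Filter Topology MeasureTheory Matrix
open scoped ComplexConjugate ComplexOrder InnerProductSpace ContDiff

namespace Crest.Agent.X261.Fs22

open Crest.Agent.R275.Geo Crest.Agent.R275.EDR890 Crest.Agent.R273.Hess_333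
open Crest.Agent.R273.Fock_243 Crest.Agent.R273.GamR_155
open Crest.Agent.X261.Fam

noncomputable section

variable {n q : ℕ} {H : Type*} [NormedAddCommGroup H] [InnerProductSpace ℂ H]
variable {U : Set (Cn n)} {G : Cn n → Mt n} {a : Cn n → Cn q}

/-! ### regularity -/

theorem wd_false_eq {f : Cn n → ℂ} {z : Cn n} (hf : DifferentiableAt ℂ f z) (b : Fin n) :
    wd (false, b) f z = fderiv ℂ f z (EuclideanSpace.single b 1) := by
  have hI : (EuclideanSpace.single b Complex.I : Cn n) =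
      Complex.I • EuclideanSpace.single b (1 : ℂ) := by
    ext c
    simp [PiLp.single_apply]
  rw [wd, (hf.hasFDerivAt.restrictScalars ℝ).fderiv]
  simp only [wdL, ContinuousLinearMap.coe_restrictScalars', hI, map_smul, cI_false, smul_eq_mul]
  linear_combination (-(1 / 2 : ℂ) * fderiv ℂ f z (EuclideanSpace.single b 1)) * Complex.I_mul_I

theorem wd_true_eq {f : Cn n → ℂ} {z : Cn n} (hf : DifferentiableAt ℂ f z) (b : Fin n) :
    wd (true, b) f z = 0 := by
  have hI : (EuclideanSpace.single b Complex.I : Cn n) =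
      Complex.I • EuclideanSpace.single b (1 : ℂ) := by
    ext c
    simp [PiLp.single_apply]
  rw [wd, (hf.hasFDerivAt.restrictScalars ℝ).fderiv]
  simp only [wdL, ContinuousLinearMap.coe_restrictScalars', hI, map_smul, cI_true, smul_eq_mul]
  linear_combination ((1 / 2 : ℂ) * fderiv ℂ f z (EuclideanSpace.single b 1)) * Complex.I_mul_I

theorem an_Cf (hU : IsOpen U) (ha : DifferentiableOn ℂ a U) (b : Fin n) (h : Fin q) :
    AnalyticOnNhd ℂ (fun z => Cf a z b h) U := by
  have h1 : DifferentiableOn ℂ (fun w => a w h) U :=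
    (EuclideanSpace.proj h : Cn q →L[ℂ] ℂ).differentiable.comp_differentiableOn ha
  have h2 : AnalyticOnNhd ℂ (fun w => a w h) U := 
    Crest.Agent.R266.SCV.analyticOnNhd_of_differentiableOn hU h1
  have h3 : AnalyticOnNhd ℂ (fun z => fderiv ℂ (fun w => a w h) z (EuclideanSpace.single b 1)) U :=
    ((ContinuousLinearMap.apply ℂ ℂ (EuclideanSpace.single b (1 : ℂ) : Cn n)).analyticOnNhd
      univ).comp h2.fderiv (mapsTo_univ _ _)
  exact h3.congr hU fun z hz => (wd_false_eq (h2 z hz).differentiableAt b).symm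

theorem an_det {ι : Type*} [Fintype ι] [DecidableEq ι] {m : Cn n → Matrix ι ι ℂ}
    (hm : ∀ r p, AnalyticOnNhd ℂ (fun w => m w r p) U) :
    AnalyticOnNhd ℂ (fun w => (m w).det) U := by
  simp only [Matrix.det_apply']
  exact Finset.analyticOnNhd_fun_sum _ fun σ _ => analyticOnNhd_const.mul
    (Finset.analyticOnNhd_fun_prod _ fun i _ => hm _ _)

theorem an_vI (hU : IsOpen U) (ha : DifferentiableOn ℂ a U) (I : FI n) (b : Fin n) :
    AnalyticOnNhd ℂ (fun z => vI (Cf a z) I b) U := by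
  have h1 : ∀ J, AnalyticOnNhd ℂ (fun z => tau (Cf a z) J) U := fun J => by
    simp only [tau, Matrix.mulVec_single_one, Matrix.col_apply]
    unfold GamR
    split_ifs with h
    · exact an_det fun r p => an_Cf hU ha _ _
    · exact analyticOnNhd_const
  simp only [vI, Matrix.of_apply, Matrix.mulVec, dotProduct]
  exact Finset.analyticOnNhd_fun_sum _ fun J _ => analyticOnNhd_const.mul (h1 J)

theorem cd_of_an {f : Cn n → ℂ} (hU : IsOpen U) (hf : AnalyticOnNhd ℂ f U) : ContDiffOn ℝ ∞ f U :=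
  (hf.contDiffOn hU.uniqueDiffOn).restrict_scalars ℝ

theorem cd_det {ι : Type*} [Fintype ι] [DecidableEq ι] {m : Cn n → Matrix ι ι ℂ}
    (hm : ∀ r p, ContDiffOn ℝ ∞ (fun w => m w r p) U) :
    ContDiffOn ℝ ∞ (fun w => (m w).det) U := by
  simp only [Matrix.det_apply']
  exact ContDiffOn.sum fun σ _ => contDiffOn_const.mul (contDiffOn_prod fun i _ => hm _ _)

theorem cd_Qe (hG : KF U G) (ha : DifferentiableOn ℂ a U) (ε : ℝ) (r p : Fin n) :
    ContDiffOn ℝ ∞ (fun z => Qe (G z) (Cf a z) ε r p) U := by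
  have h1 : ∀ r p, ContDiffOn ℝ ∞ (fun z => gE (G z) (Cf a z) ε r p) U := fun r p => by
    simp only [gE, Matrix.add_apply, Matrix.smul_apply, Matrix.mul_apply,
      Matrix.conjTranspose_apply, smul_eq_mul]
    refine (hG.sm r p).add (contDiffOn_const.mul (ContDiffOn.sum fun j _ =>
      (cd_of_an hG.opn (an_Cf hG.opn ha r j)).mul ?_))
    exact Complex.conjCLE.contDiff.comp_contDiffOn (cd_of_an hG.opn (an_Cf hG.opn ha p j))
  simp only [Qe, Matrix.smul_apply, smul_eq_mul, Matrix.adjugate_apply]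
  refine contDiffOn_const.mul (cd_det fun c d => ?_)
  simp only [Matrix.updateRow_apply]
  split_ifs
  · exact contDiffOn_const
  · exact h1 _ _

theorem c_G (hG : KF U G) : ContinuousOn G U := c_of fun r p => (hG.sm r p).continuousOn

theorem c_Cf (hU : IsOpen U) (ha : DifferentiableOn ℂ a U) : ContinuousOn (Cf a) U :=
  c_of fun r p => (an_Cf hU ha r p).continuousOn

theorem c_vI (hU : IsOpen U) (ha : DifferentiableOn ℂ a U) :
    ContinuousOn (fun z => vI (Cf a z)) U := c_of fun r p => (an_vI hU ha r p).continuousOn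

theorem c_gE (hG : KF U G) (ha : DifferentiableOn ℂ a U) (ε : ℝ) :
    ContinuousOn (fun z => gE (G z) (Cf a z) ε) U :=
  (c_G hG).add ((continuousOn_const (c := ((ε⁻¹ : ℝ) : ℂ))).smul
    (c_mul (c_Cf hG.opn ha) (c_ct (c_Cf hG.opn ha))))

theorem gE_det (hG : KF U G) {ε : ℝ} (hε : 0 < ε) :
    ∀ z ∈ U, (gE (G z) (Cf a z) ε).det ≠ 0 := fun z hz =>
  (gE_posDef (hG.pos z hz) _ hε).det_pos.ne'

theorem c_Qe (hG : KF U G) (ha : DifferentiableOn ℂ a U) (ε : ℝ) :
    ContinuousOn (fun z => Qe (G z) (Cf a z) ε) U :=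
  c_of fun r p => (cd_Qe hG ha ε r p).continuousOn

theorem c_Gi (hG : KF U G) : ContinuousOn (fun z => (G z)⁻¹) U :=
  c_inv (c_G hG) fun z hz => (hG.pos z hz).det_pos.ne'

theorem c_Q0 (hG : KF U G) (ha : DifferentiableOn ℂ a U) :
    ContinuousOn (fun z => Q0 (G z) (Cf a z)) U :=
  (c_det (c_G hG)).smul (c_mul (c_mul (c_ct (c_vI hG.opn ha)) (c_Gam (c_Gi hG))) (c_vI hG.opn ha))

theorem c_V (hG : KF U G) (ha : DifferentiableOn ℂ a U) {ε : ℝ} (hε : 0 < ε) :
    ContinuousOn (fun z => (G z).det.re * Dm (G z) (Cf a z) ε) U := by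
  refine (Complex.continuous_re.comp_continuousOn ((continuousOn_const
    (c := ((ε ^ q : ℝ) : ℂ))).mul (c_det (c_gE hG ha ε)))).congr fun z hz => ?_
  simp only [Function.comp_apply, Pi.mul_apply]
  rw [det_gE (hG.pos z hz) _ hε, Complex.ofReal_re]

theorem c_th {F : Cn n → H} (hU : IsOpen U) (hF : ContDiffOn ℝ ∞ F U) : ContinuousOn (th F) U :=
  continuousOn_pi.2 fun _ => (contDiffOn_wd hU hF _).continuousOn

theorem c_Am {F : Cn n → H} (hF : ContDiff ℝ ∞ F) : Continuous (Am F) :=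
  continuous_pi fun _ => (cd_wd (cd_wd hF _) _).continuous

theorem c_hess {φ : Cn n → ℝ} (hφ : ContDiff ℝ ∞ φ) : Continuous (hess φ) :=
  continuous_pi fun _ => continuous_pi fun _ =>
    (cd_wd (cd_wd (Complex.ofRealCLM.contDiff.comp hφ) _) _).continuous

theorem hess_off {φ : Cn n → ℝ} {z : Cn n} (hz : z ∉ tsupport φ) : hess φ z = 0 := by
  ext r p
  rw [← tsupport_cu] at hz
  rw [hess_apply, wd_congr (wd_off hz _)]
  exact wd_const 0 z _

theorem wd_cu_off {φ : Cn n → ℝ} {z : Cn n} (hz : z ∉ tsupport φ) (s : WI n) :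
    wd s (cu φ) z = 0 := by
  rw [← tsupport_cu] at hz
  exact (wd_off hz s).self_of_nhds

theorem c_wd_cu {φ : Cn n → ℝ} (hφ : ContDiff ℝ ∞ φ) (s : WI n) : Continuous (wd s (cu φ)) :=
  (cd_wd (Complex.ofRealCLM.contDiff.comp hφ) _).continuous

theorem c_d1 (hU : IsOpen U) (ha : DifferentiableOn ℂ a U) (c : Fin q → ℂ) {φ : Cn n → ℝ}
    (hφ : ContDiff ℝ ∞ φ) : ContinuousOn (fun z => d1 (Cf a z *ᵥ c) φ z) U :=
  c_of fun r p => by
    simp only [d1, Matrix.of_apply, Matrix.mulVec, dotProduct]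
    exact (continuousOn_finsetSum _ fun j _ =>
      (c_ent (c_Cf hU ha) r j).mul continuousOn_const).mul (c_wd_cu hφ _).continuousOn

theorem d1_off (y : Fin n → ℂ) {φ : Cn n → ℝ} {z : Cn n} (hz : z ∉ tsupport φ) : d1 y φ z = 0 := by
  ext r p
  simp [d1, wd_cu_off hz]

/-! ### one smooth map -/

section one

variable {φ : Cn n → ℝ} {ε : ℝ} {F : Cn n → H}

/-- the tension term -/
def Tn (G : Cn n → Mt n) (a : Cn n → Cn q) (ε : ℝ) (φ : Cn n → ℝ) (F : Cn n → H) : ℝ :=
  ∫ z, φ z * (‖trH (Qe (G z) (Cf a z) ε) (Am F z)‖ ^ 2 /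
    (ε * ((G z).det.re * Dm (G z) (Cf a z) ε)))

theorem c_tn (hG : KF U G) (ha : DifferentiableOn ℂ a U) (hε : 0 < ε) (hF : ContDiff ℝ ∞ F) :
    ContinuousOn (fun z => ‖trH (Qe (G z) (Cf a z) ε) (Am F z)‖ ^ 2 /
      (ε * ((G z).det.re * Dm (G z) (Cf a z) ε))) U :=
  ((c_trH (c_Qe hG ha ε) (c_Am hF).continuousOn).norm.pow 2).div
    (continuousOn_const.mul (c_V hG ha hε)) fun z hz =>
      (mul_pos hε (mul_pos (det_re_pos (hG.pos z hz)) (Dm_pos (hG.pos z hz) _ hε))).ne'

theorem c_w4 (hG : KF U G) (ha : DifferentiableOn ℂ a U) (hε : 0 < ε) (hF : ContDiff ℝ ∞ F) :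
    ContinuousOn (fun z => ip (W4 (gE (G z) (Cf a z) ε)) (Am F z) (Am F z)) U :=
  c_ip (c_W4 (c_gE hG ha ε) (gE_det hG hε)) (c_Am hF).continuousOn (c_Am hF).continuousOn

theorem c_na (hG : KF U G) (ha : DifferentiableOn ℂ a U) (hε : 0 < ε) (hF : ContDiff ℝ ∞ F) :
    ContinuousOn (fun z => na (G z) (Cf a z) ε (Am F z)) U :=
  ((c_tn hG ha hε hF).sub (continuousOn_const.mul (Complex.continuous_re.comp_continuousOn
    (c_w4 hG ha hε hF)))).congr fun z hz => na_eq_W4 (hG.pos z hz) _ hε _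

theorem int_phi {E : Type*} [NormedRing E] [NormedAlgebra ℝ E] (hφ : Continuous φ)
    (hc : HasCompactSupport φ) (hs : tsupport φ ⊆ U) {f : Cn n → E} (hf : ContinuousOn f U) :
    Integrable fun z => algebraMap ℝ E (φ z) * f z :=
  int_K hc (((continuous_algebraMap ℝ E).comp hφ).continuousOn.mul (hf.mono hs)) fun z hz => by
    rw [image_eq_zero_of_notMem_tsupport hz, map_zero, zero_mul]

theorem ss (hG : KF U G) (ha : DifferentiableOn ℂ a U) (hφ : ContDiff ℝ ∞ φ)
    (hc : HasCompactSupport φ) (hs : tsupport φ ⊆ U) (hε : 0 < ε) (hF : ContDiff ℝ ∞ F)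
    (h : ∫ z, (φ z : ℂ) * ip (W4 (gE (G z) (Cf a z) ε)) (Am F z) (Am F z) =
      -∫ z, ip (Wm (gE (G z) (Cf a z) ε) (hess φ z)) (th F z) (th F z)) :
    ∫ z, φ z * na (G z) (Cf a z) ε (Am F z) = Tn G a ε φ F + Rs G a ε φ F := by
  have i1 : Integrable fun z => φ z * (‖trH (Qe (G z) (Cf a z) ε) (Am F z)‖ ^ 2 /
      (ε * ((G z).det.re * Dm (G z) (Cf a z) ε))) :=
    int_phi (E := ℝ) hφ.continuous hc hs (c_tn hG ha hε hF)
  have i2 : Integrable fun z => (φ z : ℂ) * ip (W4 (gE (G z) (Cf a z) ε)) (Am F z) (Am F z) :=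
    int_phi (E := ℂ) hφ.continuous hc hs (c_w4 hG ha hε hF)
  have h2 := integral_re i2
  simp only [RCLike.re_to_complex] at h2
  have e : (fun z => φ z * na (G z) (Cf a z) ε (Am F z)) = fun z =>
      φ z * (‖trH (Qe (G z) (Cf a z) ε) (Am F z)‖ ^ 2 /
        (ε * ((G z).det.re * Dm (G z) (Cf a z) ε))) -
      ε ^ q / ε * ((φ z : ℂ) * ip (W4 (gE (G z) (Cf a z) ε)) (Am F z) (Am F z)).re := by
    funext z
    by_cases hz : z ∈ U
    · rw [na_eq_W4 (hG.pos z hz) _ hε, Complex.re_ofReal_mul]; ring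
    · simp [image_eq_zero_of_notMem_tsupport fun h => hz (hs h)]
  have i3 : Integrable fun z =>
      ((φ z : ℂ) * ip (W4 (gE (G z) (Cf a z) ε)) (Am F z) (Am F z)).re := i2.re
  rw [e, integral_sub i1 (i3.const_mul _), integral_const_mul, h2, h, Tn, Rs, Complex.neg_re]
  ring

theorem st (hG : KF U G) (ha : DifferentiableOn ℂ a U) (hφ : ContDiff ℝ ∞ φ) (h0 : ∀ z, 0 ≤ φ z)
    (hc : HasCompactSupport φ) (hs : tsupport φ ⊆ U) (hε : 0 < ε) (hF : ContDiff ℝ ∞ F)
    (cj : Cj H) (hr : ∀ z, cj.J (F z) = F z) {c : Fin q → ℂ} (hc1 : ∑ j, ‖c j‖ ^ 2 ≤ 1)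
    {t κ : ℝ} (ht : 0 < t) (hκ : 0 < κ) :
    ε ^ q / ε * ‖∫ z, (φ z : ℂ) *
        ip (W4 (gE (G z) (Cf a z) ε)) (tn (th F z) (Cf a z *ᵥ c)) (Am F z)‖ ≤
      t / 2 * (∫ z, φ z * ee (G z) (Cf a z) ε (th F z)) +
      (1 / (4 * t) + κ) * (∫ z, φ z * na (G z) (Cf a z) ε (Am F z)) + (n + 2) / (2 * κ) *
        ∫ z, φ z * (ee (G z) (Cf a z) ε (th F z) - e0 (G z) (Cf a z) (th F z)) := by
  have hθ : ContinuousOn (th F) U := c_th hG.opn hF.contDiffOn
  have c1 : ContinuousOn (fun z => ee (G z) (Cf a z) ε (th F z)) U := c_en (c_Qe hG ha ε) hθ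
  have c2 : ContinuousOn (fun z => e0 (G z) (Cf a z) (th F z)) U := c_en (c_Q0 hG ha) hθ
  have i1 : Integrable fun z => φ z * ee (G z) (Cf a z) ε (th F z) :=
    int_phi (E := ℝ) hφ.continuous hc hs c1
  have i2 : Integrable fun z => φ z * na (G z) (Cf a z) ε (Am F z) :=
    int_phi (E := ℝ) hφ.continuous hc hs (c_na hG ha hε hF)
  have i3 : Integrable fun z =>
      φ z * (ee (G z) (Cf a z) ε (th F z) - e0 (G z) (Cf a z) (th F z)) :=
    int_phi (E := ℝ) hφ.continuous hc hs (c1.sub c2)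
  have i4 : Integrable fun z => t / 2 * (φ z * ee (G z) (Cf a z) ε (th F z)) +
      (1 / (4 * t) + κ) * (φ z * na (G z) (Cf a z) ε (Am F z)) := (i1.const_mul _).add (i2.const_mul _)
  have hp : 0 ≤ ε ^ q / ε := by positivity
  rw [← integral_const_mul, ← integral_const_mul, ← integral_const_mul,
    ← integral_add (i1.const_mul _) (i2.const_mul _), ← integral_add i4 (i3.const_mul _),
    ← Real.norm_of_nonneg hp, ← norm_smul, ← integral_smul]
  refine norm_integral_le_of_norm_le (i4.add (i3.const_mul _)) (ae_of_all _ fun z => ?_)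
  by_cases hz : z ∈ U
  · have h1 := mul_le_mul_of_nonneg_left (pw2 (hG.pos z hz) (Cf a z) hε cj
      (J_Am cj hF hr z) hc1 (th F z) ht hκ) (h0 z)
    rw [norm_smul, norm_mul, Real.norm_of_nonneg hp, Complex.norm_real, Real.norm_of_nonneg (h0 z)]
    refine le_trans (le_of_eq (by ring)) (h1.trans (le_of_eq (by ring)))
  · simp [image_eq_zero_of_notMem_tsupport fun h => hz (hs h)]

theorem db_eq [CompleteSpace H] (hU : IsOpen U) (ha : DifferentiableOn ℂ a U) {χ : Cn n → ℝ}
    (hχ : ContDiff ℝ ∞ χ) (hc : HasCompactSupport χ) (hs : tsupport χ ⊆ U) (hF : ContDiff ℝ ∞ F)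
    (b : Fin n) (I : FI n) :
    ∫ z, wd (true, b) (cu χ) z • Sl a F z I =
      -∫ z, (χ z : ℂ) • ac (vI (Cf a z)) (fun r => Am F z (r, b)) I := by
  have hcu : ContDiff ℝ ∞ (cu χ) := Complex.ofRealCLM.contDiff.comp hχ
  have hv : ∀ r, ContDiffOn ℝ ∞ (fun z => vI (Cf a z) I r) U := fun r =>
    cd_of_an hU (an_vI hU ha I r)
  have hS : ContDiffOn ℝ ∞ (fun z => Sl a F z I) U :=
    ContDiffOn.sum (s := Finset.univ) (f := fun r z => vI (Cf a z) I r • wd (false, r) F z) fun r _ =>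
      (hv r).smul (cd_wd hF _).contDiffOn
  have hoff : ∀ z ∉ tsupport χ, (fun z => cu χ z • Sl a F z I) =ᶠ[𝓝 z] fun _ => 0 := fun z hz => by
    filter_upwards [notMem_tsupport_iff_eventuallyEq.1 hz] with w hw
    simp [cu, hw]
  have hg : ContDiff ℝ ∞ fun z => cu χ z • Sl a F z I := by
    refine contDiff_iff_contDiffAt.2 fun z => ?_
    by_cases hz : z ∈ tsupport χ
    · exact hcu.contDiffAt.smul (hS.contDiffAt (hU.mem_nhds (hs hz)))
    · exact contDiffAt_const.congr_of_eventuallyEq (hoff z hz)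
  have hgc : HasCompactSupport fun z => cu χ z • Sl a F z I :=
    HasCompactSupport.intro hc fun z hz => (hoff z hz).self_of_nhds
  have h1 := int_wd_H hg hgc (true, b)
  have e : (fun z => wd (true, b) (fun z => cu χ z • Sl a F z I) z) = fun z =>
      wd (true, b) (cu χ) z • Sl a F z I +
        (χ z : ℂ) • ac (vI (Cf a z)) (fun r => Am F z (r, b)) I := by
    funext z
    by_cases hz : z ∈ tsupport χ
    · have hzU := hU.mem_nhds (hs hz)
      rw [wd_smul (hcu.differentiable (by simp) z)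
        ((hS.contDiffAt hzU).differentiableAt (by simp))]
      congr 2
      have e1 : wd (true, b) (fun z => Sl a F z I) z =
          ∑ r, wd (true, b) (fun z => vI (Cf a z) I r • wd (false, r) F z) z :=
        wd_sum Finset.univ (f := fun r z => vI (Cf a z) I r • wd (false, r) F z) (fun r _ => (((hv r).contDiffAt hzU).smul
          (cd_wd hF _).contDiffAt).differentiableAt (by simp)) _
      rw [e1]
      refine Finset.sum_congr rfl fun r _ => ?_
      rw [wd_smul (((hv r).contDiffAt hzU).differentiableAt (by simp))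
        ((cd_wd hF _).differentiable (by simp) z),
        wd_true_eq (an_vI hU ha I r z (hs hz)).differentiableAt, zero_smul, zero_add]
      congr 1
      exact wd_comm hF.contDiffAt _ _
    · rw [wd_congr (hoff z hz), wd_const, wd_cu_off hz, image_eq_zero_of_notMem_tsupport hz]
      simp
  have i1 : Integrable fun z => wd (true, b) (cu χ) z • Sl a F z I :=
    int_K hc ((c_wd_cu hχ _).continuousOn.smul (hS.continuousOn.mono hs)) fun z hz => by
      rw [wd_cu_off hz, zero_smul]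
  have i2 : Integrable fun z => (χ z : ℂ) • ac (vI (Cf a z)) (fun r => Am F z (r, b)) I :=
    int_K hc (hcu.continuous.continuousOn.smul ((continuousOn_pi.1 (c_ac (c_vI hU ha)
      (continuousOn_pi.2 fun r => ((continuous_apply (r, b)).comp (c_Am hF)).continuousOn))
        I).mono hs)) fun z hz => by
      rw [image_eq_zero_of_notMem_tsupport hz]; simp
  rw [e, integral_add i1 i2] at h1
  exact eq_neg_of_add_eq_zero_left h1

theorem norm_int_sq_le {K : Set (Cn n)} (hK : IsCompact K) {f : Cn n → H} (hf : ContinuousOn f K)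
    (h0 : ∀ z ∉ K, f z = 0) :
    ‖∫ z, f z‖ ^ 2 ≤ (volume : Measure (Cn n)).real K * ∫ z in K, ‖f z‖ ^ 2 := by
  rw [← setIntegral_eq_integral_of_forall_compl_eq_zero h0]
  exact (pow_le_pow_left₀ (norm_nonneg _) (norm_integral_le_integral_norm _) 2).trans
    (sq_int_le hK hf.norm)

theorem db [CompleteSpace H] (hG : KF U G) (ha : DifferentiableOn ℂ a U) (hφ : ContDiff ℝ ∞ φ)
    (h0 : ∀ z, 0 ≤ φ z) (hc : HasCompactSupport φ) (hs : tsupport φ ⊆ U) {χ : Cn n → ℝ}
    (hχ : ContDiff ℝ ∞ χ) (hp : tsupport χ ⊆ {z | 0 < φ z}) :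
    ∃ C : ℝ, 0 ≤ C ∧ ∀ (ε : ℝ) (F : Cn n → H), 0 < ε → ε ≤ 1 → ContDiff ℝ ∞ F →
      ∀ (b : Fin n) (I : FI n), ‖∫ z, wd (true, b) (cu χ) z • Sl a F z I‖ ^ 2 ≤
        C * ∫ z, φ z * na (G z) (Cf a z) ε (Am F z) := by
  have hs1 : tsupport χ ⊆ tsupport φ := fun z hz => subset_tsupport _ (ne_of_gt (hp hz))
  have hK : IsCompact (tsupport χ) := hc.of_isClosed_subset (isClosed_tsupport _) hs1
  have hU : tsupport χ ⊆ U := hs1.trans hs
  set w : Fin n × FI n → Cn n → ℝ := fun p z => χ z ^ 2 * ((Gam (G z) p.2 p.2).re *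
    ((G z p.1 p.1).re * (1 + (Hm (G z) (Cf a z)).trace.re))) / ((G z).det.re * φ z) with hw
  have hwc : ∀ p, ContinuousOn (w p) (tsupport χ) := fun p => by
    have hH : ContinuousOn (fun z => Hm (G z) (Cf a z)) U :=
      c_mul (c_mul (c_ct (c_Cf hG.opn ha)) (c_Gi hG)) (c_Cf hG.opn ha)
    refine ((hχ.continuous.continuousOn.pow 2).mul (((Complex.continuous_re.comp_continuousOn
      (c_ent (c_Gam (c_G hG)) p.2 p.2)).mul ((Complex.continuous_re.comp_continuousOn
      (c_ent (c_G hG) p.1 p.1)).mul (continuousOn_const.add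
      (Complex.continuous_re.comp_continuousOn (c_tr hH))))).mono hU)).div
      (((Complex.continuous_re.comp_continuousOn (c_det (c_G hG))).mono hU).mul
        hφ.continuous.continuousOn) fun z hz => ?_
    exact (mul_pos (det_re_pos (hG.pos z (hU hz))) (hp hz)).ne'
  choose M hM0 hM using fun p => bd_K hK (hwc p)
  refine ⟨(volume : Measure (Cn n)).real (tsupport χ) * ∑ p, M p,
    mul_nonneg measureReal_nonneg (Finset.sum_nonneg fun p _ => hM0 p), ?_⟩
  intro ε F hε hε1 hF b I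
  have hM' : M (b, I) ≤ ∑ p, M p := Finset.single_le_sum (fun p _ => hM0 p) (Finset.mem_univ _)
  have cA : ContinuousOn (fun z => (χ z : ℂ) • ac (vI (Cf a z)) (fun r => Am F z (r, b)) I)
      (tsupport χ) :=
    (Complex.continuous_ofReal.comp hχ.continuous).continuousOn.smul ((continuousOn_pi.1
      (c_ac (c_vI hG.opn ha) (continuousOn_pi.2 fun r =>
        ((continuous_apply (r, b)).comp (c_Am hF)).continuousOn)) I).mono hU)
  have i2 : Integrable fun z => φ z * na (G z) (Cf a z) ε (Am F z) :=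
    int_phi (E := ℝ) hφ.continuous hc hs (c_na hG ha hε hF)
  have hn : ∀ z, 0 ≤ φ z * na (G z) (Cf a z) ε (Am F z) := fun z => by
    by_cases hz : z ∈ U
    · exact mul_nonneg (h0 z) (na_nonneg (hG.pos z hz) _ hε _)
    · simp [image_eq_zero_of_notMem_tsupport fun h => hz (hs h)]
  rw [db_eq hG.opn ha hχ hK hU hF, norm_neg, mul_assoc]
  refine (norm_int_sq_le hK cA fun z hz => by
    rw [image_eq_zero_of_notMem_tsupport hz]; simp).trans
    (mul_le_mul_of_nonneg_left ?_ measureReal_nonneg)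
  rw [← integral_const_mul]
  refine le_trans ?_ (setIntegral_le_integral (s := tsupport χ) (i2.const_mul _)
    (ae_of_all _ fun z => mul_nonneg ((hM0 _).trans hM') (hn z)))
  refine setIntegral_mono_on ((cA.norm.pow 2).integrableOn_compact hK)
    (i2.const_mul _).integrableOn hK.measurableSet fun z hz => ?_
  have hz' := hG.pos z (hU hz)
  have hd := det_re_pos hz'
  have hφz : 0 < φ z := hp hz
  have h4 := pw4 hz' (Cf a z) (fun r => Am F z (r, b)) I
  have h5 := pw5 hz' (Cf a z) hε hε1 (Am F z) b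
  have hI : 0 ≤ (Gam (G z) I I).re :=
    (Complex.nonneg_iff.1 ((gam_psd hz').diag_nonneg (i := I))).1
  have h6 := h4.trans (mul_le_mul_of_nonneg_left h5 hI)
  have h7 : w (b, I) z * (φ z * na (G z) (Cf a z) ε (Am F z)) ≤
      (∑ p, M p) * (φ z * na (G z) (Cf a z) ε (Am F z)) :=
    mul_le_mul_of_nonneg_right ((hM _ z hz).trans hM') (hn z)
  refine le_trans ?_ h7
  rw [norm_smul, mul_pow, Complex.norm_real, Real.norm_eq_abs, sq_abs, hw]
  have h8 := mul_le_mul_of_nonneg_left h6 (div_nonneg (sq_nonneg (χ z)) hd.le)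
  refine le_trans (le_of_eq ?_) (h8.trans (le_of_eq ?_))
  · field_simp
  · field_simp

end one

end

end Crest.Agent.X261.Fs22
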