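import Crest.Agent.X261.Fs22.B

/-!
# Row 261, package FAM, transfer half of `FsStmt` (helper22), part Main

* `fs_of : MolStmt → SmStmt → FsStmt`.
-/

set_option autoImplicit false
set_option linter.unusedSectionVars false

open Set Filter Topology MeasureTheory Matrix
open scoped ComplexConjugate ComplexOrder InnerProductSpace ContDiff

namespace Crest.Agent.X261.Fs22

open Crest.Agent.R275.Geo Crest.Agent.R275.EDR890 Crest.Agent.R273.Hess_333
open Crest.Agent.R273.Fock_243 Crest.Agent.R273.GamR_155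
open Crest.Agent.X261.Fam

noncomputable section

variable {n q : ℕ} {H : Type*} [NormedAddCommGroup H] [InnerProductSpace ℂ H]
variable {U : Set (Cn n)} {G : Cn n → Mt n} {a : Cn n → Cn q} {φ : Cn n → ℝ} {ε : ℝ}

/-- `F'` is a smooth real map of small tension close to `F` -/
structure Nr (cj : Cj H) (K : Set (Cn n)) (Q : Cn n → Mt n) (B η : ℝ) (F F' : Cn n → H) :
    Prop where
  c : ContinuousOn (th F) K
  bd : ∫ z in K, Fam.sq (th F z) ≤ B
  sm : ContDiff ℝ ∞ F'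
  re : ∀ z, cj.J (F' z) = F' z
  nr : ∫ z in K, Fam.sq (th F' z - th F z) ≤ η
  tn : ∫ z in K, ‖trH (Q z) (Am F' z)‖ ^ 2 ≤ η

theorem Nr.c' {cj : Cj H} {K : Set (Cn n)} {Q : Cn n → Mt n} {B η : ℝ} {F F' : Cn n → H}
    (h : Nr cj K Q B η F F') : ContinuousOn (th F') K :=
  (c_th isOpen_univ h.sm.contDiffOn).mono (subset_univ _)

theorem exists_bd {cj : Cj H} {Q : Cn n → Mt n} {K K' : Set (Cn n)} {F : ℕ → Cn n → H}
    (hU : IsOpen U) (hK' : IsCompact K') (hKK : K ⊆ K') (hKU : K' ⊆ U) (h : Sq cj U Q K' F) :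
    ∃ B : ℝ, ∀ᶠ i in atTop, ∫ z in K, Fam.sq (th (F i) z) ≤ B := by
  obtain ⟨N, hN⟩ := h.cau 1 one_pos
  have c : ∀ i, ContinuousOn (th (F i)) K' := fun i => (c_th hU (h.sm i)).mono hKU
  refine ⟨2 * (∫ z in K', Fam.sq (th (F N) z)) + 2, ?_⟩
  filter_upwards [eventually_ge_atTop N] with i hi
  have i1 : ∀ i, IntegrableOn (fun z => Fam.sq (th (F i) z)) K' := fun i =>
    (c_sq (c i)).integrableOn_compact hK'
  have i2 : IntegrableOn (fun z => Fam.sq (th (F i) z - th (F N) z)) K' :=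
    (c_sq ((c i).sub (c N))).integrableOn_compact hK'
  have h1 : ∫ z in K, Fam.sq (th (F i) z) ≤ ∫ z in K', Fam.sq (th (F i) z) :=
    setIntegral_mono_set (i1 i) (ae_of_all _ fun z => sq_nonneg' _) hKK.eventuallyLE
  have h2 : ∫ z in K', Fam.sq (th (F i) z) ≤
      ∫ z in K', (2 * Fam.sq (th (F N) z) + 2 * Fam.sq (th (F i) z - th (F N) z)) :=
    integral_mono (i1 i) (((i1 N).const_mul _).add (i2.const_mul _)) fun z => by
      have := sq_add_le (th (F N) z) (th (F i) z - th (F N) z)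
      rwa [add_sub_cancel] at this
  rw [integral_add ((i1 N).const_mul _) (i2.const_mul _), integral_const_mul,
    integral_const_mul] at h2
  linarith [hN i hi N le_rfl]

theorem ev_small {c δ : ℝ} (hδ : 0 < δ) : ∀ᶠ η in 𝓝[>] (0 : ℝ), c * η ≤ δ := by
  have h : Tendsto (fun η : ℝ => c * η) (𝓝[>] 0) (𝓝 (c * 0)) :=
    ((continuous_const.mul continuous_id).tendsto 0).mono_left nhdsWithin_le_nhds
  rw [mul_zero] at h
  exact h.eventually (ge_mem_nhds hδ)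

section est

variable (hG : KF U G) (ha : DifferentiableOn ℂ a U) (hφ : ContDiff ℝ ∞ φ) (h0 : ∀ z, 0 ≤ φ z)
  (hc : HasCompactSupport φ) (hs : tsupport φ ⊆ U) (hε : 0 < ε) (cj : Cj H) (B : ℝ)

include hG ha hφ h0 hc hs hε

theorem tn_small {δ : ℝ} (hδ : 0 < δ) : ∀ᶠ η in 𝓝[>] (0 : ℝ), ∀ F F' : Cn n → H,
    Nr cj (tsupport φ) (fun z => Qe (G z) (Cf a z) ε) B η F F' → Tn G a ε φ F' ≤ δ := by
  have hp : ∀ z ∈ U, 0 < ε * ((G z).det.re * Dm (G z) (Cf a z) ε) := fun z hz =>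
    mul_pos hε (mul_pos (det_re_pos (hG.pos z hz)) (Dm_pos (hG.pos z hz) _ hε))
  obtain ⟨M, hM0, hM⟩ := bd_K hc
    (f := fun z => φ z / (ε * ((G z).det.re * Dm (G z) (Cf a z) ε)))
    (hφ.continuous.continuousOn.div ((continuousOn_const.mul (c_V hG ha hε)).mono hs)
      fun z hz => (hp z (hs hz)).ne')
  filter_upwards [ev_small (c := M) hδ] with η hη F F' h
  have c1 : ContinuousOn (fun z => ‖trH (Qe (G z) (Cf a z) ε) (Am F' z)‖ ^ 2) (tsupport φ) :=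
    ((c_trH (c_Qe hG ha ε) (c_Am h.sm).continuousOn).norm.pow 2).mono hs
  have i1 : Integrable fun z => φ z * (‖trH (Qe (G z) (Cf a z) ε) (Am F' z)‖ ^ 2 /
      (ε * ((G z).det.re * Dm (G z) (Cf a z) ε))) :=
    int_phi (E := ℝ) hφ.continuous hc hs (c_tn hG ha hε h.sm)
  have h1 : Tn G a ε φ F' ≤ ∫ z in tsupport φ, M * ‖trH (Qe (G z) (Cf a z) ε) (Am F' z)‖ ^ 2 := by
    rw [Tn, ← setIntegral_eq_integral_of_forall_compl_eq_zero (s := tsupport φ) fun z hz => by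
      rw [image_eq_zero_of_notMem_tsupport hz, zero_mul]]
    refine setIntegral_mono_on i1.integrableOn ((c1.integrableOn_compact hc).const_mul _)
      (isClosed_tsupport _).measurableSet fun z hz => ?_
    refine le_trans (le_of_eq (by ring)) (mul_le_mul_of_nonneg_right (hM z hz) (sq_nonneg _))
  rw [integral_const_mul] at h1
  exact h1.trans ((mul_le_mul_of_nonneg_left h.tn hM0).trans hη)

theorem rs_near {δ : ℝ} (hδ : 0 < δ) : ∀ᶠ η in 𝓝[>] (0 : ℝ), ∀ F F' : Cn n → H,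
    Nr cj (tsupport φ) (fun z => Qe (G z) (Cf a z) ε) B η F F' →
      Rs G a ε φ F' ≤ Rs G a ε φ F + δ := by
  have hp : 0 < ε ^ q / ε := by positivity
  filter_upwards [qf_near (H := H) hc (X := fun z => Wm (gE (G z) (Cf a z) ε) (hess φ z))
    ((c_Wm (c_gE hG ha ε) (gE_det hG hε) (c_hess hφ).continuousOn).mono hs)
    (fun z hz => by rw [hess_off hz, Wm_zero]) B (div_pos hδ hp)] with η hη F F' h
  have h1 := (Complex.re_le_norm _).trans (hη _ _ h.c h.c' h.bd h.nr)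
  rw [Complex.sub_re, le_div_iff₀ hp] at h1
  unfold Rs
  linarith

theorem na_nn (F : Cn n → H) : 0 ≤ ∫ z, φ z * na (G z) (Cf a z) ε (Am F z) :=
  integral_nonneg fun z => by
    by_cases hz : z ∈ U
    · exact mul_nonneg (h0 z) (na_nonneg (hG.pos z hz) _ hε _)
    · simp [image_eq_zero_of_notMem_tsupport fun h => hz (hs h)]

/-- the energy of the second derivatives is controlled by `Rs` -/
theorem na_le (hss : ∀ F : Cn n → H, ContDiff ℝ ∞ F →
      ∫ z, (φ z : ℂ) * ip (W4 (gE (G z) (Cf a z) ε)) (Am F z) (Am F z) =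
        -∫ z, ip (Wm (gE (G z) (Cf a z) ε) (hess φ z)) (th F z) (th F z))
    {δ : ℝ} (hδ : 0 < δ) : ∀ᶠ η in 𝓝[>] (0 : ℝ), ∀ F F' : Cn n → H,
    Nr cj (tsupport φ) (fun z => Qe (G z) (Cf a z) ε) B η F F' →
      ∫ z, φ z * na (G z) (Cf a z) ε (Am F' z) ≤ Rs G a ε φ F + δ := by
  filter_upwards [tn_small hG ha hφ h0 hc hs hε cj B (half_pos hδ),
    rs_near hG ha hφ h0 hc hs hε cj B (half_pos hδ)] with η h1 h2 F F' h
  rw [ss hG ha hφ hc hs hε h.sm (hss _ h.sm)]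
  linarith [h1 F F' h, h2 F F' h]

theorem st_le (hss : ∀ F : Cn n → H, ContDiff ℝ ∞ F →
      ∫ z, (φ z : ℂ) * ip (W4 (gE (G z) (Cf a z) ε)) (Am F z) (Am F z) =
        -∫ z, ip (Wm (gE (G z) (Cf a z) ε) (hess φ z)) (th F z) (th F z))
    {c : Fin q → ℂ} (hst : ∀ F : Cn n → H, ContDiff ℝ ∞ F →
      ∫ z, ip (Wm (gE (G z) (Cf a z) ε) (d1 (Cf a z *ᵥ c) φ z)) (th F z) (th F z) =
        ∫ z, (φ z : ℂ) * ip (W4 (gE (G z) (Cf a z) ε)) (tn (th F z) (Cf a z *ᵥ c)) (Am F z))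
    (hc1 : ∑ j, ‖c j‖ ^ 2 ≤ 1) {t κ : ℝ} (ht : 0 < t) (hκ : 0 < κ) {δ : ℝ} (hδ : 0 < δ) :
    ∀ᶠ η in 𝓝[>] (0 : ℝ), ∀ F F' : Cn n → H,
    Nr cj (tsupport φ) (fun z => Qe (G z) (Cf a z) ε) B η F F' →
      ε ^ q / ε * ‖∫ z, ip (Wm (gE (G z) (Cf a z) ε) (d1 (Cf a z *ᵥ c) φ z)) (th F z) (th F z)‖ ≤
        t / 2 * (∫ z, φ z * ee (G z) (Cf a z) ε (th F z)) +
        (1 / (4 * t) + κ) * Rs G a ε φ F + (n + 2) / (2 * κ) *
          (∫ z, φ z * (ee (G z) (Cf a z) ε (th F z) - e0 (G z) (Cf a z) (th F z))) + δ := by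
  have hp : 0 < ε ^ q / ε := by positivity
  have hδ' : 0 < δ / 4 := by positivity
  have p1 : 0 < t / 2 := by positivity
  have p2 : 0 < 1 / (4 * t) + κ := by positivity
  have p3 : 0 < ((n : ℝ) + 2) / (2 * κ) := by positivity
  have hφ0 : ∀ z ∉ tsupport φ, φ z = 0 := fun z hz => image_eq_zero_of_notMem_tsupport hz
  have e : ∀ (z : Cn n) (θ : Fin n → H), ee (G z) (Cf a z) ε θ - e0 (G z) (Cf a z) θ =
      en (Qe (G z) (Cf a z) ε - Q0 (G z) (Cf a z)) θ := fun z θ => by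
    simp only [ee, e0, en, ip_sub, Complex.sub_re]
  filter_upwards [qf_near (H := H) hc
      (X := fun z => Wm (gE (G z) (Cf a z) ε) (d1 (Cf a z *ᵥ c) φ z))
      ((c_Wm (c_gE hG ha ε) (gE_det hG hε) (c_d1 hG.opn ha c hφ)).mono hs)
      (fun z hz => by rw [d1_off _ hz, Wm_zero]) B (div_pos hδ' hp),
    qr_near (H := H) hc hφ.continuous.continuousOn hφ0 ((c_Qe hG ha ε).mono hs) B (div_pos hδ' p1),
    na_le hG ha hφ h0 hc hs hε cj B hss (div_pos hδ' p2),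
    qr_near (H := H) hc hφ.continuous.continuousOn hφ0
      (((c_Qe hG ha ε).sub (c_Q0 hG ha)).mono hs) B (div_pos hδ' p3)] with η k1 k2 k3 k4 F F' h
  have m0 := st hG ha hφ h0 hc hs hε h.sm cj h.re hc1 ht hκ
  rw [← hst _ h.sm] at m0
  have m1 := (norm_sub_norm_le _ _).trans ((norm_sub_rev _ _).le.trans (k1 _ _ h.c h.c' h.bd h.nr))
  have m2 := k2 _ _ h.c h.c' h.bd h.nr
  have m3 := k3 _ _ h
  have m4 := k4 _ _ h.c h.c' h.bd h.nr
  simp only [e] at m0 ⊢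
  simp only [Pi.sub_apply] at m4
  unfold ee at m0 ⊢
  rw [le_div_iff₀ hp] at m1
  rw [← sub_le_iff_le_add', le_div_iff₀ p1] at m2
  rw [← sub_le_iff_le_add', le_div_iff₀ p2] at m3
  rw [← sub_le_iff_le_add', le_div_iff₀ p3] at m4
  linarith

omit h0 hε in
theorem sl_near {χ : Cn n → ℝ} (hχ : ContDiff ℝ ∞ χ) (hp : tsupport χ ⊆ tsupport φ)
    (Q : Cn n → Mt n) (b : Fin n) (I : FI n) {δ : ℝ} (hδ : 0 < δ) :
    ∀ᶠ η in 𝓝[>] (0 : ℝ), ∀ F F' : Cn n → H, Nr cj (tsupport φ) Q B η F F' →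
      ‖(∫ z, wd (true, b) (cu χ) z • Sl a F' z I) - ∫ z, wd (true, b) (cu χ) z • Sl a F z I‖ ^ 2 ≤
        δ := by
  have cv := (c_vI hG.opn ha).mono hs
  have cw := (c_wd_cu hχ (true, b)).continuousOn (s := tsupport φ)
  obtain ⟨M, hM0, hM⟩ := bd_K hc
    (f := fun z => ‖wd (true, b) (cu χ) z‖ ^ 2 * ((vI (Cf a z) * (vI (Cf a z))ᴴ) I I).re)
    ((cw.norm.pow 2).mul (Complex.continuous_re.comp_continuousOn (c_ent (c_mul cv (c_ct cv)) I I)))
  filter_upwards [ev_small (c := (volume : Measure (Cn n)).real (tsupport φ) * M) hδ]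
    with η hη F F' h
  have hz0 : ∀ z ∉ tsupport φ, wd (true, b) (cu χ) z = 0 := fun z hz =>
    wd_cu_off (fun h => hz (hp h)) _
  have c1 : ∀ θ : Cn n → Fin n → H, ContinuousOn θ (tsupport φ) →
      ContinuousOn (fun z => wd (true, b) (cu χ) z • ac (vI (Cf a z)) (θ z) I) (tsupport φ) :=
    fun θ hθ => cw.smul (continuousOn_pi.1 (c_ac cv hθ) I)
  have i1 : ∀ θ : Cn n → Fin n → H, ContinuousOn θ (tsupport φ) →
      Integrable (fun z => wd (true, b) (cu χ) z • ac (vI (Cf a z)) (θ z) I) :=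
    fun θ hθ => int_K hc (c1 θ hθ) fun z hz => by rw [hz0 z hz, zero_smul]
  have cd : ContinuousOn (fun z => th F' z - th F z) (tsupport φ) := h.c'.sub h.c
  have e : (∫ z, wd (true, b) (cu χ) z • Sl a F' z I) - ∫ z, wd (true, b) (cu χ) z • Sl a F z I =
      ∫ z, wd (true, b) (cu χ) z • ac (vI (Cf a z)) (th F' z - th F z) I := by
    unfold Sl
    rw [← integral_sub (i1 _ h.c') (i1 _ h.c)]
    simp only [ac_sub, Pi.sub_apply, smul_sub]
  rw [e]
  refine (norm_int_sq_le hc (c1 _ cd) fun z hz => by rw [hz0 z hz, zero_smul]).trans ?_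
  refine le_trans ?_ hη
  rw [mul_assoc]
  refine mul_le_mul_of_nonneg_left ?_ measureReal_nonneg
  refine le_trans ?_ (mul_le_mul_of_nonneg_left h.nr hM0)
  rw [← integral_const_mul]
  refine setIntegral_mono_on (((c1 _ cd).norm.pow 2).integrableOn_compact hc)
    (((c_sq cd).integrableOn_compact hc).const_mul _) (isClosed_tsupport _).measurableSet
    fun z hz => ?_
  rw [norm_smul, mul_pow]
  refine (mul_le_mul_of_nonneg_left (norm_ac_sq_le _ _ I) (sq_nonneg _)).trans ?_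
  rw [← mul_assoc]
  exact mul_le_mul_of_nonneg_right (hM z hz) (sq_nonneg' _)

end est

/-- the reduction to `Nr` -/
theorem of_nr {cj : Cj H} {K : Set (Cn n)} {Q : Cn n → Mt n} {B : ℝ} {F : ℕ → Cn n → H}
    (h : ∀ η : ℝ, 0 < η → ∀ᶠ i in atTop, ∃ F', Nr cj K Q B η (F i) F') {P : (Cn n → H) → Prop}
    (hP : ∀ᶠ η in 𝓝[>] (0 : ℝ), ∀ F F', Nr cj K Q B η F F' → P F) : ∀ᶠ i in atTop, P (F i) := by
  obtain ⟨η, h1, h2⟩ := (eventually_mem_nhdsWithin.and hP).exists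
  filter_upwards [h η h1] with i ⟨F', hF'⟩ using h2 _ _ hF'

/-- **FS** from **MOL** and **SM** -/
theorem fs_of (mol : MolStmt) (sm : SmStmt) : FsStmt := by
  intro n q H _ _ _ cj U G a φ K' hG ha hφ h0 hK' hφK hKU
  have hs1 : tsupport φ ⊆ K' := hφK.trans interior_subset
  have hc : HasCompactSupport φ := hK'.of_isClosed_subset (isClosed_tsupport _) hs1
  have hs : tsupport φ ⊆ U := hs1.trans hKU
  have key : ∀ (ε : ℝ) (F : ℕ → Cn n → H), 0 < ε → Sq cj U (fun z => Qe (G z) (Cf a z) ε) K' F →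
      ∃ B : ℝ, ∀ η : ℝ, 0 < η → ∀ᶠ i in atTop,
        ∃ F', Nr cj (tsupport φ) (fun z => Qe (G z) (Cf a z) ε) B η (F i) F' := by
    intro ε F hε hF
    obtain ⟨B, hB⟩ := exists_bd hG.opn hK' hs1 hKU hF
    refine ⟨B, fun η hη => ?_⟩
    filter_upwards [hB, mol n H cj U _ (tsupport φ) K' F hG.opn (cd_Qe hG ha ε)
      (fun z hz => (Qe_posDef (hG.pos z hz) _ hε).1) (sm n q H U G a φ ε hG ha hφ hc hs hε).1
      hc hK' hφK hKU hF η hη] with i h1 ⟨F', h2, h3, h4, h5⟩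
    exact ⟨F', (c_th hG.opn (hF.sm i)).mono hs, h1, h2, h3, h4, h5⟩
  refine ⟨fun ε F hε _ hF η hη => ?_, fun χ hχ hp => ?_⟩
  · obtain ⟨B, hB⟩ := key ε F hε hF
    have hS := (sm n q H U G a φ ε hG ha hφ hc hs hε).2
    refine ⟨of_nr hB (P := fun F => -η ≤ Rs G a ε φ F) ?_, fun c t κ hc1 ht hκ => ?_⟩
    · filter_upwards [na_le hG ha hφ h0 hc hs hε cj B (fun F hF => (hS F hF).1) hη]
        with η' h F F' hn
      linarith [h F F' hn, na_nn hG ha hφ h0 hc hs hε F']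
    · exact of_nr hB (st_le hG ha hφ h0 hc hs hε cj B (fun F hF => (hS F hF).1)
        (fun F hF => (hS F hF).2 c) hc1 ht hκ hη)
  · obtain ⟨C, hC0, hC⟩ := db (H := H) hG ha hφ h0 hc hs hχ hp
    refine ⟨2 * C, by positivity, fun ε F hε hε1 hF η hη => ?_⟩
    obtain ⟨B, hB⟩ := key ε F hε hF
    have hS := (sm n q H U G a φ ε hG ha hφ hc hs hε).2
    have hp' : tsupport χ ⊆ tsupport φ := fun z hz => subset_tsupport _ (ne_of_gt (hp hz))
    refine of_nr hB (P := fun F => ∀ (b : Fin n) (I : FI n),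
      ‖∫ z, wd (true, b) (cu χ) z • Sl a F z I‖ ^ 2 ≤ 2 * C * Rs G a ε φ F + η) ?_
    have hδ : 0 < η / (4 * (C + 1)) := by positivity
    filter_upwards [na_le hG ha hφ h0 hc hs hε cj B (fun F hF => (hS F hF).1) hδ,
      eventually_all.2 fun b => eventually_all.2 fun I => sl_near hG ha hφ hc hs cj B hχ hp'
        (fun z => Qe (G z) (Cf a z) ε) b I (show 0 < η / 4 by positivity)] with η' k1 k2 F F' hn b I
    have m1 := (hC ε F' hε hε1 hn.sm b I).trans (mul_le_mul_of_nonneg_left (k1 F F' hn) hC0)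
    have m2 := k2 b I F F' hn
    set x := ∫ z, wd (true, b) (cu χ) z • Sl a F z I
    set y := ∫ z, wd (true, b) (cu χ) z • Sl a F' z I
    have m3 : ‖x‖ ≤ ‖y‖ + ‖y - x‖ := by
      have := norm_sub_le y (y - x)
      rwa [sub_sub_cancel] at this
    have m4 := pow_le_pow_left₀ (norm_nonneg _) m3 2
    have m5 : C * (η / (4 * (C + 1))) ≤ η / 4 := by
      rw [mul_div_assoc', div_le_div_iff₀ (by positivity) (by positivity)]
      nlinarith
    nlinarith [sq_nonneg (‖y‖ - ‖y - x‖)]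

end

end Crest.Agent.X261.Fs22
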